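import Mathlib
import Vale.Agent.Lib.P248.helper25.ABDefs

/-!
# P248: the anti-blocking dual of a good set is good
-/

namespace Vale.Agent.Lib.P248.H5

open Vale.Agent.Lib.P248.H25 MeasureTheory
open scoped ENNReal

/-- The anti-blocking dual as an intersection of closed half-spaces. -/
theorem dual_eq_inter {n : ℕ} (A : Set (Fin n → ℝ)) :
    dual A = (⋂ i, {y : Fin n → ℝ | 0 ≤ y i}) ∩
      ⋂ x ∈ A, {y : Fin n → ℝ | ∑ i, x i * y i ≤ 1} := by
  ext y
  constructor
  · rintro ⟨h1, h2⟩
    exact ⟨Set.mem_iInter.2 h1, Set.mem_iInter₂.2 h2⟩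
  · rintro ⟨h1, h2⟩
    refine ⟨fun i => Set.mem_iInter.1 h1 i, fun x hx => ?_⟩
    have h3 : y ∈ {y : Fin n → ℝ | ∑ i, x i * y i ≤ 1} := Set.mem_iInter₂.1 h2 x hx
    exact h3

theorem good_dual {n : ℕ} {A : Set (Fin n → ℝ)} {ε R : ℝ} (h : Good A ε R) :
    Good (dual A) (1 / (n * |R| + 1)) (1 / ε) := by
  have hden : (0 : ℝ) < n * |R| + 1 := by positivity
  refine ⟨?_, ?_, ⟨?_, ?_⟩, ?_, ?_, ?_⟩
  · -- closed
    rw [dual_eq_inter]
    apply IsClosed.inter
    · exact isClosed_iInter (fun i => isClosed_le continuous_const (continuous_apply i))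
    · exact isClosed_biInter (fun x _ => isClosed_le
        (continuous_finsetSum _ (fun i _ => continuous_const.mul (continuous_apply i)))
        continuous_const)
  · -- convex
    intro y hy y' hy' a b ha hb hab
    refine ⟨fun i => ?_, fun x hx => ?_⟩
    · have h1 := hy.1 i
      have h2 := hy'.1 i
      show 0 ≤ a * y i + b * y' i
      positivity
    · have h1 := hy.2 x hx
      have h2 := hy'.2 x hx
      have h3 : ∑ i, x i * (a • y + b • y') i
          = a * ∑ i, x i * y i + b * ∑ i, x i * y' i := by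
        rw [Finset.mul_sum, Finset.mul_sum, ← Finset.sum_add_distrib]
        apply Finset.sum_congr rfl
        intro i _
        show x i * (a * y i + b * y' i) = _
        ring
      rw [h3]
      calc a * ∑ i, x i * y i + b * ∑ i, x i * y' i ≤ a * 1 + b * 1 :=
            add_le_add (mul_le_mul_of_nonneg_left h1 ha) (mul_le_mul_of_nonneg_left h2 hb)
        _ = 1 := by rw [mul_one, mul_one, hab]
  · -- anti-blocking, nonnegativity
    intro y hy i
    exact hy.1 i
  · -- anti-blocking, down-set
    intro y hy y' hy'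
    refine ⟨fun i => (hy' i).1, fun x hx => ?_⟩
    refine le_trans (Finset.sum_le_sum (fun i _ => ?_)) (hy.2 x hx)
    exact mul_le_mul_of_nonneg_left (hy' i).2 (h.ab.1 x hx i)
  · -- eps_pos
    positivity
  · -- cube
    intro y hy
    refine ⟨fun i => (hy i).1, fun x hx => ?_⟩
    have hterm : ∀ i ∈ (Finset.univ : Finset (Fin n)),
        x i * y i ≤ |R| * (1 / (n * |R| + 1)) := by
      intro i _
      have hxR : x i ≤ |R| := le_trans (h.bdd x hx i) (le_abs_self R)
      exact mul_le_mul hxR (hy i).2 (hy i).1 (abs_nonneg R)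
    calc ∑ i, x i * y i ≤ ∑ _i : Fin n, |R| * (1 / (n * |R| + 1)) := Finset.sum_le_sum hterm
      _ = n * |R| / (n * |R| + 1) := by
          rw [Finset.sum_const, Finset.card_univ, Fintype.card_fin, nsmul_eq_mul]
          ring
      _ ≤ 1 := by
          rw [div_le_one hden]
          linarith
  · -- bdd
    intro y hy i
    have hx : (fun j : Fin n => if j = i then ε else 0) ∈ A := by
      apply h.cube
      intro j
      show 0 ≤ (if j = i then ε else 0) ∧ (if j = i then ε else 0) ≤ ε
      by_cases hj : j = i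
      · rw [if_pos hj]
        exact ⟨h.eps_pos.le, le_refl _⟩
      · rw [if_neg hj]
        exact ⟨le_refl _, h.eps_pos.le⟩
    have h2 := hy.2 _ hx
    have h3 : ∑ j, (if j = i then ε else 0) * y j = ε * y i := by
      rw [Finset.sum_eq_single i]
      · rw [if_pos rfl]
      · intro j _ hj
        rw [if_neg hj, zero_mul]
      · intro hi
        exact absurd (Finset.mem_univ i) hi
    have h4 : ε * y i ≤ 1 := by
      rw [← h3]
      exact h2
    rw [le_div_iff₀ h.eps_pos]
    linarith

end Vale.Agent.Lib.P248.H5
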