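import Mathlib
import Vale.Agent.Lib.P248.helper37.Q2Defs

/-!
# P248 pool job J7: the algebraic inequality for labelled trees

For a labelled tree `t : LT m` with `t.Ok`:
`(m + 1) ^ (m + 1) ≤ t.b * ∑ k ≤ m, t.Om k / k!`.
-/

open MeasureTheory Set

namespace Vale.Agent.Lib.P248.H5T

open Vale.Agent.Lib.P248.H37 Vale.Agent.Lib.P248.H37Q

/-! ### The definitions of the trees, as equalities that hold by computation -/

theorem u_leaf : (LT.leaf).u = 1 := rfl

theorem u_node {m : ℕ} (u b : ℝ) (ch : Fin (m + 1) → LT m) : (LT.node u b ch).u = u := rfl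

theorem b_leaf : (LT.leaf).b = 1 := rfl

theorem b_node {m : ℕ} (u b : ℝ) (ch : Fin (m + 1) → LT m) : (LT.node u b ch).b = b := rfl

theorem Om_zero {m : ℕ} (t : LT m) : LT.Om 0 t = t.u := rfl

theorem Om_succ_node (k : ℕ) {m : ℕ} (u b : ℝ) (ch : Fin (m + 1) → LT m) :
    LT.Om (k + 1) (LT.node u b ch) = ∑ i, LT.Om k (ch i) := rfl

theorem ok_node {m : ℕ} (u b : ℝ) (ch : Fin (m + 1) → LT m) :
    (LT.node u b ch).Ok ↔
      (0 < u ∧ 0 < b ∧ (∀ i, (ch i).Ok) ∧ ∑ i, (1 + (ch i).u / u) * (ch i).b ≤ b) := Iff.rfl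

theorem u_pos {d : ℕ} (s : LT d) (hs : s.Ok) : 0 < s.u := by
  cases s with
  | leaf => rw [u_leaf]; exact one_pos
  | node u b ch => rw [u_node]; exact ((ok_node u b ch).1 hs).1

theorem b_pos {d : ℕ} (s : LT d) (hs : s.Ok) : 0 < s.b := by
  cases s with
  | leaf => rw [b_leaf]; exact one_pos
  | node u b ch => rw [b_node]; exact ((ok_node u b ch).1 hs).2.1

/-! ### The auxiliary quantities -/

/-- `x(s) = (choose N d * s.u) ^ (1 / (N + 1))` for a tree `s` of height `d`. -/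
noncomputable def xv (N : ℕ) {d : ℕ} (s : LT d) : ℝ :=
  ((N.choose d : ℝ) * s.u) ^ (((N : ℝ) + 1)⁻¹)

theorem xv_nonneg (N : ℕ) {d : ℕ} (s : LT d) (hs : s.Ok) : 0 ≤ xv N s :=
  Real.rpow_nonneg (mul_nonneg (Nat.cast_nonneg _) (u_pos s hs).le) _

theorem xv_pos (N : ℕ) {d : ℕ} (s : LT d) (hs : s.Ok) (hd : d ≤ N) : 0 < xv N s :=
  Real.rpow_pos_of_pos (mul_pos (Nat.cast_pos.2 (Nat.choose_pos hd)) (u_pos s hs)) _

theorem xv_pow (N : ℕ) {d : ℕ} (s : LT d) (hs : s.Ok) :
    xv N s ^ (N + 1) = (N.choose d : ℝ) * s.u := by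
  have h := Real.rpow_inv_natCast_pow
    (mul_nonneg (Nat.cast_nonneg (N.choose d)) (u_pos s hs).le) (Nat.succ_ne_zero N)
  rw [Nat.cast_succ] at h
  exact h

theorem xv_leaf (N : ℕ) : xv N LT.leaf = 1 := by
  unfold xv
  rw [u_leaf, Nat.choose_zero_right, Nat.cast_one, mul_one, Real.one_rpow]

/-- `Φ_p`: the sum over all nodes of `(height)! * x ^ p`. -/
noncomputable def Phi (N p : ℕ) : {d : ℕ} → LT d → ℝ
  | _, LT.leaf => 1
  | _, @LT.node d u b ch =>
    ((d + 1).factorial : ℝ) * xv N (LT.node u b ch) ^ p + ∑ i, Phi N p (ch i)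

theorem Phi_leaf (N p : ℕ) : Phi N p LT.leaf = 1 := by
  rw [Phi]

theorem Phi_node (N p : ℕ) {d : ℕ} (u b : ℝ) (ch : Fin (d + 1) → LT d) :
    Phi N p (LT.node u b ch)
      = ((d + 1).factorial : ℝ) * xv N (LT.node u b ch) ^ p + ∑ i, Phi N p (ch i) := by
  rw [Phi]

theorem Phi_pos (N p : ℕ) : ∀ {d : ℕ} (s : LT d), s.Ok → 0 < Phi N p s := by
  intro d s
  induction s with
  | leaf => intro _; rw [Phi_leaf]; exact one_pos
  | @node m u b ch ih =>
    intro hs
    rw [Phi_node]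
    have hch := ((ok_node u b ch).1 hs).2.2.1
    have h1 : 0 ≤ ((m + 1).factorial : ℝ) * xv N (LT.node u b ch) ^ p :=
      mul_nonneg (Nat.cast_nonneg _) (pow_nonneg (xv_nonneg N _ hs) p)
    have h2 : 0 < ∑ i, Phi N p (ch i) :=
      Finset.sum_pos (fun i _ => ih i (hch i)) Finset.univ_nonempty
    linarith

/-- (F1) -/
theorem Phi_zero (N : ℕ) : ∀ {d : ℕ} (s : LT d), Phi N 0 s = ((d + 1).factorial : ℝ) := by
  intro d s
  induction s with
  | leaf => rw [Phi_leaf]; simp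
  | @node m u b ch ih =>
    rw [Phi_node, pow_zero, mul_one]
    simp only [ih, Finset.sum_const, Finset.card_univ, Fintype.card_fin, nsmul_eq_mul]
    rw [Nat.factorial_succ (m + 1)]
    push_cast
    ring

/-- Young's inequality with natural exponents. -/
theorem young (p : ℕ) (a y : ℝ) (ha : 0 ≤ a) (hy : 0 ≤ y) :
    ((p : ℝ) + 1) * a * y ^ p ≤ a ^ (p + 1) + p * y ^ (p + 1) := by
  induction p with
  | zero => simp
  | succ p ih =>
    have h1 : 0 ≤ (a ^ (p + 1) - y ^ (p + 1)) * (a - y) := by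
      rcases le_total a y with h | h
      · exact mul_nonneg_of_nonpos_of_nonpos (sub_nonpos.2 (pow_le_pow_left₀ ha h _))
          (sub_nonpos.2 h)
      · exact mul_nonneg (sub_nonneg.2 (pow_le_pow_left₀ hy h _)) (sub_nonneg.2 h)
    have h2 := mul_le_mul_of_nonneg_right ih hy
    have e1 : a ^ (p + 1 + 1) = a ^ (p + 1) * a := pow_succ a (p + 1)
    have e3 : y ^ (p + 1) = y ^ p * y := pow_succ y p
    have e2 : y ^ (p + 1 + 1) = y ^ p * y * y := by rw [pow_succ, pow_succ]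
    rw [e3] at h1 h2
    rw [e1, e2, e3]
    push_cast
    nlinarith [h1, h2]

/-- (F2) -/
theorem Phi_young (N p : ℕ) (x0 : ℝ) (hx0 : 0 ≤ x0) : ∀ {d : ℕ} (s : LT d), s.Ok →
    ((p : ℝ) + 1) * x0 * Phi N p s ≤ x0 ^ (p + 1) * Phi N 0 s + p * Phi N (p + 1) s := by
  intro d s
  induction s with
  | leaf =>
    intro _
    rw [Phi_leaf, Phi_leaf, Phi_leaf]
    have h := young p x0 1 hx0 zero_le_one
    simpa using h
  | @node m u b ch ih =>
    intro hs
    have hch := ((ok_node u b ch).1 hs).2.2.1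
    rw [Phi_node, Phi_node, Phi_node]
    have hx := xv_nonneg N _ hs
    have h1 := young p x0 (xv N (LT.node u b ch)) hx0 hx
    have h2 : ∑ i, ((p : ℝ) + 1) * x0 * Phi N p (ch i)
        ≤ ∑ i, (x0 ^ (p + 1) * Phi N 0 (ch i) + p * Phi N (p + 1) (ch i)) :=
      Finset.sum_le_sum (fun i _ => ih i (hch i))
    rw [← Finset.mul_sum, Finset.sum_add_distrib, ← Finset.mul_sum, ← Finset.mul_sum] at h2
    have hf : (0 : ℝ) ≤ ((m + 1).factorial : ℝ) := Nat.cast_nonneg _
    have h3 := mul_le_mul_of_nonneg_left h1 hf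
    rw [pow_zero, mul_one]
    nlinarith [h2, h3]

/-- (F3) -/
theorem Phi_top (N : ℕ) : ∀ {d : ℕ} (s : LT d), s.Ok →
    Phi N (N + 1) s = ∑ j ∈ Finset.range (d + 1),
      (((d - j).factorial * N.choose (d - j) : ℕ) : ℝ) * LT.Om j s := by
  intro d s
  induction s with
  | leaf =>
    intro _
    rw [Phi_leaf, Finset.sum_range_one, Om_zero, u_leaf]
    simp
  | @node m u b ch ih =>
    intro hs
    have hch := ((ok_node u b ch).1 hs).2.2.1
    rw [Phi_node, xv_pow N _ hs, u_node, Finset.sum_range_succ', Om_zero, u_node]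
    simp only [Om_succ_node, Nat.add_sub_add_right, Nat.sub_zero]
    rw [Finset.sum_congr rfl (fun i _ => ih i (hch i)), Finset.sum_comm]
    simp only [Finset.mul_sum]
    push_cast
    ring

/-- Weighted inequality of the arithmetic and geometric means: `n` terms, `k` of them equal to
`r ^ n` and the others equal to `1`. -/
theorem amgm (n k : ℕ) (hk : k ≤ n) (hn : 0 < n) (r : ℝ) (hr : 0 ≤ r) :
    (n : ℝ) * r ^ k ≤ k * r ^ n + ((n : ℝ) - k) := by
  have hn' : (0 : ℝ) < n := Nat.cast_pos.2 hn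
  have hkn : (k : ℝ) ≤ n := Nat.cast_le.2 hk
  have h := Real.geom_mean_le_arith_mean2_weighted (w₁ := ((n : ℝ) - k) / n) (w₂ := (k : ℝ) / n)
    (p₁ := 1) (p₂ := r ^ n)
    (div_nonneg (sub_nonneg.2 hkn) hn'.le) (div_nonneg (Nat.cast_nonneg k) hn'.le) zero_le_one
    (pow_nonneg hr n) (by field_simp; ring)
  have e0 : (n : ℝ) * ((k : ℝ) / n) = k := by field_simp
  have e : (r ^ n) ^ ((k : ℝ) / n) = r ^ k := by
    rw [← Real.rpow_natCast r n, ← Real.rpow_mul hr, e0, Real.rpow_natCast]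
  rw [Real.one_rpow, one_mul, e] at h
  have h2 := mul_le_mul_of_nonneg_left h hn'.le
  have e2 : (n : ℝ) * (((n : ℝ) - k) / n * 1 + (k : ℝ) / n * r ^ n)
      = k * r ^ n + ((n : ℝ) - k) := by
    field_simp
    ring
  rw [e2] at h2
  exact h2

/-- `β(s) = s.b * x(s) ^ (N - d) * d! / (N + 1) ^ d`. -/
noncomputable def beta (N : ℕ) {d : ℕ} (s : LT d) : ℝ :=
  s.b * xv N s ^ (N - d) * (d.factorial : ℝ) / ((N : ℝ) + 1) ^ d

theorem beta_leaf (N : ℕ) : beta N LT.leaf = 1 := by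
  unfold beta
  rw [b_leaf, xv_leaf]
  simp

/-- (F4) and the step inequality `∑ β(child) ≤ β(node) * x(node)`. -/
theorem step (N : ℕ) {m : ℕ} (u b : ℝ) (ch : Fin (m + 1) → LT m) (hs : (LT.node u b ch).Ok)
    (hm : m + 1 ≤ N) :
    ∑ i, beta N (ch i) ≤ beta N (LT.node u b ch) * xv N (LT.node u b ch) := by
  obtain ⟨hu, hb, hch, hsum⟩ := (ok_node u b ch).1 hs
  have hx := xv_pos N _ hs hm
  have hxp := xv_pow N _ hs
  rw [u_node] at hxp
  have hN : (0 : ℝ) < (N : ℝ) + 1 := by positivity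
  have hm1 : (0 : ℝ) < (m : ℝ) + 1 := by positivity
  have hCpos : (0 : ℝ) < (N.choose (m + 1) : ℝ) := Nat.cast_pos.2 (Nat.choose_pos hm)
  have hCpos' : (0 : ℝ) < (N.choose m : ℝ) := Nat.cast_pos.2 (Nat.choose_pos (by omega))
  have hch1 : (N.choose (m + 1) : ℝ) * ((m : ℝ) + 1) = (N.choose m : ℝ) * ((N - m : ℕ) : ℝ) := by
    have h := Nat.choose_succ_right_eq N m
    exact_mod_cast h
  have e2 : (((N + 1 : ℕ) : ℝ)) - ((N - m : ℕ) : ℝ) = (m : ℝ) + 1 := by
    rw [Nat.cast_sub (by omega : m ≤ N)]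
    push_cast
    ring
  have hxm : (0 : ℝ) < xv N (LT.node u b ch) ^ (N - m) := pow_pos hx _
  -- the inequality for one child
  have key : ∀ i, beta N (ch i) ≤ ((m + 1).factorial : ℝ) / ((N : ℝ) + 1) ^ (m + 1)
      * xv N (LT.node u b ch) ^ (N - m) * ((1 + (ch i).u / u) * (ch i).b) := by
    intro i
    have hci := hch i
    have hxc := xv_pos N (ch i) hci (by omega)
    have hxcp := xv_pow N (ch i) hci
    have hcb := b_pos (ch i) hci
    have hcu := u_pos (ch i) hci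
    have ham := amgm (N + 1) (N - m) (by omega) (Nat.succ_pos N)
      (xv N (ch i) / xv N (LT.node u b ch)) (div_nonneg hxc.le hx.le)
    have e1 : ((N - m : ℕ) : ℝ) * (xv N (ch i) / xv N (LT.node u b ch)) ^ (N + 1)
        = ((m : ℝ) + 1) * ((ch i).u / u) := by
      rw [div_pow, hxcp, hxp]
      field_simp
      linear_combination (-1 : ℝ) * hch1
    rw [e1, e2, div_pow] at ham
    push_cast at ham
    -- ham : (N + 1) * (xc ^ (N - m) / x ^ (N - m)) ≤ (m + 1) * (cu / u) + (m + 1)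
    have h3 : ((N : ℝ) + 1) * xv N (ch i) ^ (N - m)
        ≤ ((m : ℝ) + 1) * (1 + (ch i).u / u) * xv N (LT.node u b ch) ^ (N - m) := by
      have := mul_le_mul_of_nonneg_right ham hxm.le
      have e3 : ((N : ℝ) + 1) * (xv N (ch i) ^ (N - m) / xv N (LT.node u b ch) ^ (N - m))
          * xv N (LT.node u b ch) ^ (N - m) = ((N : ℝ) + 1) * xv N (ch i) ^ (N - m) := by
        field_simp
      rw [e3] at this
      linarith
    unfold beta
    have hfact : ((m + 1).factorial : ℝ) = ((m : ℝ) + 1) * (m.factorial : ℝ) := by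
      rw [Nat.factorial_succ]
      push_cast
      ring
    have hpN : (0 : ℝ) < ((N : ℝ) + 1) ^ m := pow_pos hN m
    have hmf : (0 : ℝ) < (m.factorial : ℝ) := Nat.cast_pos.2 (Nat.factorial_pos m)
    rw [hfact, pow_succ, div_le_iff₀ hpN]
    have h4 := mul_le_mul_of_nonneg_left h3 (mul_nonneg hcb.le hmf.le)
    have e4 : ((m : ℝ) + 1) * (m.factorial : ℝ) / (((N : ℝ) + 1) ^ m * ((N : ℝ) + 1))
        * xv N (LT.node u b ch) ^ (N - m) * ((1 + (ch i).u / u) * (ch i).b) * ((N : ℝ) + 1) ^ m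
        = ((ch i).b * (m.factorial : ℝ)) * (((m : ℝ) + 1) * (1 + (ch i).u / u)
          * xv N (LT.node u b ch) ^ (N - m)) / ((N : ℝ) + 1) := by
      field_simp
    rw [e4, le_div_iff₀ hN]
    linarith
  calc ∑ i, beta N (ch i)
      ≤ ∑ i, ((m + 1).factorial : ℝ) / ((N : ℝ) + 1) ^ (m + 1)
          * xv N (LT.node u b ch) ^ (N - m) * ((1 + (ch i).u / u) * (ch i).b) :=
        Finset.sum_le_sum (fun i _ => key i)
    _ = ((m + 1).factorial : ℝ) / ((N : ℝ) + 1) ^ (m + 1)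
          * xv N (LT.node u b ch) ^ (N - m) * ∑ i, (1 + (ch i).u / u) * (ch i).b := by
        rw [Finset.mul_sum]
    _ ≤ ((m + 1).factorial : ℝ) / ((N : ℝ) + 1) ^ (m + 1)
          * xv N (LT.node u b ch) ^ (N - m) * b :=
        mul_le_mul_of_nonneg_left hsum (by positivity)
    _ = beta N (LT.node u b ch) * xv N (LT.node u b ch) := by
        unfold beta
        rw [b_node]
        have e5 : N - m = N - (m + 1) + 1 := by omega
        rw [e5, pow_succ]
        ring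

theorem beta_pos (N : ℕ) {d : ℕ} (s : LT d) (hs : s.Ok) (hd : d ≤ N) : 0 < beta N s := by
  unfold beta
  have h1 := b_pos s hs
  have h2 := pow_pos (xv_pos N s hs hd) (N - d)
  have h3 : (0 : ℝ) < (d.factorial : ℝ) := Nat.cast_pos.2 (Nat.factorial_pos d)
  have h4 : (0 : ℝ) < ((N : ℝ) + 1) ^ d := by positivity
  positivity

/-- (KEY) -/
theorem key (N : ℕ) : ∀ {d : ℕ} (s : LT d), s.Ok → d ≤ N →
    ((d : ℝ) + 1) * ((d.factorial : ℝ)) ^ 2 ≤ beta N s * Phi N (d + 1) s := by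
  intro d s
  induction s with
  | leaf =>
    intro _ _
    rw [Phi_leaf, beta_leaf]
    simp
  | @node m u b ch ih =>
    intro hs hm
    obtain ⟨hu, hb, hch, hsum⟩ := (ok_node u b ch).1 hs
    have hx := xv_pos N _ hs hm
    have hstep := step N u b ch hs hm
    have hβ := beta_pos N _ hs hm
    have hapos : ∀ i, 0 < Phi N (m + 1) (ch i) := fun i => Phi_pos N (m + 1) (ch i) (hch i)
    have hih : ∀ i, ((m : ℝ) + 1) * ((m.factorial : ℝ)) ^ 2 / Phi N (m + 1) (ch i)
        ≤ beta N (ch i) := by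
      intro i
      rw [div_le_iff₀ (hapos i)]
      exact ih i (hch i) (by omega)
    have hcs := Finset.sq_sum_div_le_sum_sq_div (Finset.univ : Finset (Fin (m + 1)))
      (fun _ => (1 : ℝ)) (g := fun i => Phi N (m + 1) (ch i)) (fun i _ => hapos i)
    simp only [Finset.sum_const, Finset.card_univ, Fintype.card_fin, nsmul_eq_mul, mul_one,
      one_pow] at hcs
    push_cast at hcs
    have hSpos : 0 < ∑ i, Phi N (m + 1) (ch i) :=
      Finset.sum_pos (fun i _ => hapos i) Finset.univ_nonempty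
    have hmf : (0 : ℝ) < (m.factorial : ℝ) := Nat.cast_pos.2 (Nat.factorial_pos m)
    have hm1 : (0 : ℝ) < (m : ℝ) + 1 := by positivity
    have h1 : ((m : ℝ) + 1) * ((m.factorial : ℝ)) ^ 2
        * (((m : ℝ) + 1) ^ 2 / ∑ i, Phi N (m + 1) (ch i))
        ≤ beta N (LT.node u b ch) * xv N (LT.node u b ch) := by
      calc ((m : ℝ) + 1) * ((m.factorial : ℝ)) ^ 2
            * (((m : ℝ) + 1) ^ 2 / ∑ i, Phi N (m + 1) (ch i))
          ≤ ((m : ℝ) + 1) * ((m.factorial : ℝ)) ^ 2 * ∑ i, 1 / Phi N (m + 1) (ch i) :=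
            mul_le_mul_of_nonneg_left hcs (by positivity)
        _ = ∑ i, ((m : ℝ) + 1) * ((m.factorial : ℝ)) ^ 2 / Phi N (m + 1) (ch i) := by
            rw [Finset.mul_sum]
            exact Finset.sum_congr rfl (fun i _ => by ring)
        _ ≤ ∑ i, beta N (ch i) := Finset.sum_le_sum (fun i _ => hih i)
        _ ≤ beta N (LT.node u b ch) * xv N (LT.node u b ch) := hstep
    have hy : ∀ i, ((m : ℝ) + 1 + 1) * xv N (LT.node u b ch) * Phi N (m + 1) (ch i)
        ≤ xv N (LT.node u b ch) ^ (m + 1 + 1) * ((m + 1).factorial : ℝ)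
          + ((m : ℝ) + 1) * Phi N (m + 1 + 1) (ch i) := by
      intro i
      have h := Phi_young N (m + 1) (xv N (LT.node u b ch)) hx.le (ch i) (hch i)
      rw [Phi_zero] at h
      push_cast at h
      exact h
    have hy2 : ((m : ℝ) + 1 + 1) * xv N (LT.node u b ch) * ∑ i, Phi N (m + 1) (ch i)
        ≤ ((m : ℝ) + 1) * Phi N (m + 1 + 1) (LT.node u b ch) := by
      rw [Phi_node]
      have h := Finset.sum_le_sum (fun i (_ : i ∈ Finset.univ) => hy i)
      rw [← Finset.mul_sum, Finset.sum_add_distrib, ← Finset.mul_sum, Finset.sum_const,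
        Finset.card_univ, Fintype.card_fin, nsmul_eq_mul, ← Finset.mul_sum] at h
      push_cast at h
      linarith
    -- combine
    have h1' : ((m : ℝ) + 1) ^ 3 * ((m.factorial : ℝ)) ^ 2
        ≤ beta N (LT.node u b ch) * xv N (LT.node u b ch) * ∑ i, Phi N (m + 1) (ch i) := by
      have h := mul_le_mul_of_nonneg_right h1 hSpos.le
      have e : ((m : ℝ) + 1) * ((m.factorial : ℝ)) ^ 2
          * (((m : ℝ) + 1) ^ 2 / ∑ i, Phi N (m + 1) (ch i)) * ∑ i, Phi N (m + 1) (ch i)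
          = ((m : ℝ) + 1) ^ 3 * ((m.factorial : ℝ)) ^ 2 := by
        field_simp
      rw [e] at h
      exact h
    have h2 := mul_le_mul_of_nonneg_left hy2 hβ.le
    have hfact : ((m + 1).factorial : ℝ) = ((m : ℝ) + 1) * (m.factorial : ℝ) := by
      rw [Nat.factorial_succ]
      push_cast
      ring
    rw [hfact]
    push_cast
    have h3 : ((m : ℝ) + 1) * (((m : ℝ) + 1 + 1) * (((m : ℝ) + 1) * (m.factorial : ℝ)) ^ 2)
        ≤ ((m : ℝ) + 1) * (beta N (LT.node u b ch) * Phi N (m + 1 + 1) (LT.node u b ch)) := by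
      nlinarith [h1', h2]
    exact le_of_mul_le_mul_left h3 hm1

theorem tree_alg {m : ℕ} (t : LT m) (ht : t.Ok) :
    ((m : ℝ) + 1) ^ (m + 1) ≤ t.b * ∑ k ∈ Finset.range (m + 1), t.Om k / (k.factorial : ℝ) := by
  have hk := key m t ht le_rfl
  have h3 := Phi_top m t ht
  have hβ : beta m t = t.b * (m.factorial : ℝ) / ((m : ℝ) + 1) ^ m := by
    unfold beta
    rw [Nat.sub_self, pow_zero, mul_one]
  have hsum : ∑ j ∈ Finset.range (m + 1),
      (((m - j).factorial * m.choose (m - j) : ℕ) : ℝ) * LT.Om j t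
      = (m.factorial : ℝ) * ∑ k ∈ Finset.range (m + 1), t.Om k / (k.factorial : ℝ) := by
    rw [Finset.mul_sum]
    refine Finset.sum_congr rfl (fun j hj => ?_)
    have hj' : j ≤ m := Nat.lt_succ_iff.1 (Finset.mem_range.1 hj)
    have h1 := Nat.choose_mul_factorial_mul_factorial hj'
    have hsymm := Nat.choose_symm hj'
    rw [hsymm]
    have hjpos : (0 : ℝ) < (j.factorial : ℝ) := Nat.cast_pos.2 (Nat.factorial_pos j)
    have h2 : (m.choose j : ℝ) * (j.factorial : ℝ) * ((m - j).factorial : ℝ)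
        = (m.factorial : ℝ) := by exact_mod_cast h1
    rw [eq_comm, mul_div_assoc', div_eq_iff hjpos.ne']
    push_cast
    linear_combination (-(LT.Om j t)) * h2
  rw [h3, hsum, hβ] at hk
  have hf : (0 : ℝ) < (m.factorial : ℝ) := Nat.cast_pos.2 (Nat.factorial_pos m)
  have hp : (0 : ℝ) < ((m : ℝ) + 1) ^ m := by positivity
  have e : t.b * (m.factorial : ℝ) / ((m : ℝ) + 1) ^ m
      * ((m.factorial : ℝ) * ∑ k ∈ Finset.range (m + 1), t.Om k / (k.factorial : ℝ))
      = (t.b * ∑ k ∈ Finset.range (m + 1), t.Om k / (k.factorial : ℝ))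
        * (m.factorial : ℝ) ^ 2 / ((m : ℝ) + 1) ^ m := by
    ring
  rw [e, le_div_iff₀ hp] at hk
  rw [pow_succ]
  have hf2 : (0 : ℝ) < (m.factorial : ℝ) ^ 2 := by positivity
  have h4 : ((m : ℝ) + 1) ^ m * ((m : ℝ) + 1) * (m.factorial : ℝ) ^ 2
      ≤ (t.b * ∑ k ∈ Finset.range (m + 1), t.Om k / (k.factorial : ℝ))
        * (m.factorial : ℝ) ^ 2 := by
    linarith
  exact le_of_mul_le_mul_right h4 hf2

end Vale.Agent.Lib.P248.H5T
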